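import Vale.Agent.P050.H398.Final

namespace Vale.Agent.Results.P050.CartesianClosure

open Vale.Agent.P050 Vale.Agent.P050.Cart

/-- Cartesian products of Sidorenko graphs `G` (in the ordinary sense, for all finite graphs).
(1) If `G` is Sidorenko, has average degree at least 1, and `H` is a cloned graph, then `G □ H` is
Sidorenko. (2) The same for `G` without isolated vertices and `H` in the class `Factor`.
(3) Every tree-arrangeable graph is a cloned graph. (4) So is every bipartite graph that has a
vertex adjacent to all vertices of the opposite part, and (5) every complete bipartite graph. -/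
theorem result :
    (∀ (V W : Type) [Fintype V] [Fintype W] [DecidableEq W] (G : SimpleGraph V)
      (H : SimpleGraph W), IsSidorenko G → Nat.card V ≤ 2 * Nat.card G.edgeSet → IsCloned H →
        IsSidorenko (G □ H)) ∧
    (∀ (V W : Type) [Fintype V] [Fintype W] [DecidableEq W] (G : SimpleGraph V)
      (H : SimpleGraph W) (t : W → Bool), IsSidorenko G → (∀ v, ∃ w, G.Adj v w) → Factor H t →
        IsSidorenko (G □ H)) ∧
    (∀ (W : Type) [Fintype W] [DecidableEq W] (H : SimpleGraph W),
      TreeArrangeable H → IsCloned H) ∧
    (∀ (W : Type) [Fintype W] [DecidableEq W] (H : SimpleGraph W) (A : Set W) (a : W),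
      (∀ u v, H.Adj u v → (u ∈ A ↔ v ∉ A)) → a ∈ A → (∀ b, b ∉ A → H.Adj a b) → IsCloned H) ∧
    ∀ m n : ℕ, IsCloned (completeBipartiteGraph (Fin (m + 1)) (Fin n)) :=
  ⟨fun _ _ _ _ _ _ _ hG hd hH => H398.box_cloned hG hd hH,
    fun _ _ _ _ _ _ _ _ hG hi hH => H398.box_factor hG hi hH,
    fun _ _ _ _ h => H398.isCloned_of_tree h,
    fun _ _ _ _ _ _ h ha hd => H398.isCloned_of_dominating h ha hd,
    H398.isCloned_completeBipartite⟩

end Vale.Agent.Results.P050.CartesianClosure
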