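import Vale.Agent.P050.Cut.Final

namespace Vale.Agent.Results.P050.CutNormLocal

open MeasureTheory Vale.Agent.P050 Vale.Agent.P050.H753 Vale.Agent.P050.Loc

/-- Sidorenko's inequality near constants in the cut norm, uniformly in all bipartite graphs `H`
of bounded degree: (1) for kernels bounded by a multiple of their mean; (2) for finite graphs. -/
theorem result :
    (∀ (V Ω : Type) [Fintype V] [DecidableEq V] [MeasurableSpace Ω]
      (H : SimpleGraph V) [DecidableRel H.Adj] (μ : Measure Ω) [IsProbabilityMeasure μ]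
      (W : Ω → Ω → ℝ) (hW : ∀ s t, W s t = W t s) (p C : ℝ) (Δ : ℕ),
      H.IsBipartite → (∀ v, H.degree v ≤ Δ) → Measurable (Function.uncurry W) → 0 < p →
      ∫ s, ∫ t, W s t ∂μ ∂μ = p →
      (∀ᵐ z ∂(μ.prod μ), 0 ≤ W z.1 z.2 ∧ W z.1 z.2 ≤ C * p) →
      (∀ S T : Set Ω, MeasurableSet S → MeasurableSet T →
        |∫ s in S, ∫ t in T, (W s t - p) ∂μ ∂μ| ≤ (1 / (24 * Δ * C)) ^ (51 * Δ ^ 3) * p) →
      p ^ H.edgeFinset.card ≤ kernelDensity μ H W hW) ∧
    (∀ (V X : Type) [Finite V] [Finite X] [Nonempty X] (H : SimpleGraph V) (G : SimpleGraph X)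
      (Δ : ℕ), H.IsBipartite → (∀ v, (H.neighborSet v).ncard ≤ Δ) →
      (∀ S T : Set X, |({q : X × X | q.1 ∈ S ∧ q.2 ∈ T ∧ G.Adj q.1 q.2}.ncard : ℝ) -
        edgeDensity G * S.ncard * T.ncard| ≤
          (edgeDensity G / (24 * Δ)) ^ (51 * Δ ^ 3) * (edgeDensity G * (Nat.card X : ℝ) ^ 2)) →
      edgeDensity G ^ Nat.card H.edgeSet ≤ homDensity H G) := by
  refine ⟨?_, ?_⟩
  · intro V Ω _ _ _ H _ μ _ W hW p C Δ hH hdeg hm hp hint hbd hcut
    exact cut_local μ H hH W hW hm hp hint hbd hdeg hcut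
  · intro V X _ _ _ H G Δ hH hdeg hcut
    exact cut_local_graph H G hH Δ hdeg hcut

end Vale.Agent.Results.P050.CutNormLocal
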