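import Vale.Agent.P050.H523.Graph

namespace Vale.Agent.Results.P050.HypercontractiveTargets

open Vale.Agent.P050 Vale.Agent.P050.Lev Vale.Agent.P050.H523

/-- **Hypercontractive expanders suffice.** Let `H` be a finite graph with a proper 2-colouring
`side` such that every vertex of colour `b` has degree `d b`, with `2 ≤ d b`. Then `H` satisfies the
two-sided Sidorenko inequality if and only if, for some `ε > 0`, the homomorphism density of `H` is
at least `ε` for every admissible target: finite weighted kernels with all margins one, which are
hypercontractive, have no dense blocks, have a spectral gap, minimise the density of `H` relative to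
a norm, and for which the average law of the edges of a random copy of `H` is the law of an edge.
If this is the case, `H` satisfies the Sidorenko inequality for all finite graphs. -/
theorem result {V : Type} [Fintype V] [DecidableEq V] (H : SimpleGraph V) (side : V → Bool)
    (hside : ∀ u v, H.Adj u v → side u ≠ side v) (d : Bool → ℕ)
    (hdeg : ∀ v, Nat.card {u : V // H.Adj v u} = d (side v)) (hd : ∀ b, 2 ≤ d b) :
    (GSid H side ↔ ∃ ε : ℝ, 0 < ε ∧
      ∀ (U : Type) [Fintype U] (m : Bool → U → ℝ) (W : U → U → ℝ),
        Admissible (sideEdges H side) side d m W → ε ≤ dens (sideEdges H side) side m W) ∧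
    (GSid H side → ∀ (U : Type) [Finite U] [Nonempty U] (X : SimpleGraph U),
      edgeDensity X ^ Nat.card H.edgeSet ≤ homDensity H X) := by
  refine ⟨⟨?_, ?_⟩, ?_⟩
  · intro hG
    refine ⟨1, one_pos, ?_⟩
    intro U _ m W hA
    have h1 := hG.2.2 U m W hA.m_nonneg hA.m_sum hA.W_nonneg
    have h2 : ∑ x, ∑ y, m false x * m true y * W x y = 1 := by
      rw [← hA.m_sum false]
      refine Finset.sum_congr rfl fun x _ => ?_
      by_cases hx : m false x = 0
      · simp [hx]
      · have h3 := hA.margin_false x hx
        calc ∑ y, m false x * m true y * W x y = m false x * ∑ y, m true y * W x y := by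
              rw [Finset.mul_sum]
              exact Finset.sum_congr rfl fun y _ => by ring
          _ = m false x := by rw [h3, mul_one]
    rw [h2, one_pow] at h1
    exact h1
  · rintro ⟨ε, hε, h⟩
    exact gsid_of_admissible hside hdeg hd hε h
  · intro hG U _ _ X
    exact sidorenko_of_gsid hG X

end Vale.Agent.Results.P050.HypercontractiveTargets
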