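import Vale.Agent.P050.H148.NearState
import Vale.Agent.P050.H148.Graph

namespace Vale.Agent.Results.P050.NearSidorenko

open Vale.Agent.P050 Vale.Agent.P050.H148

/-- **Sidorenko's inequality up to a small exponent, or up to one more factor; Moebius ladders.**
`NearSid H s K N`: `p ^ K ≤ t(H) ^ N` for all kernels with values in `[0, 1]`, `p` being the mean,
with arbitrary probability weights on the two sides. `WithK2 H s σ N j M`:
`p ^ (N e(H) + 2 M j) ≤ t(H) ^ N t(K_{2,M}) ^ j` for all nonnegative kernels, that is, the disjoint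
union of `N` copies of `H` and `j` copies of `K_{2,M}` satisfies the two-sided Sidorenko inequality.
(1) Let `H` be a bipartite graph, `σ` one of its parts and `D` a nonempty subset of `σ`, injectively
numbered by `r`, such that for each `d ∈ D` there is `e ∈ D` such that each neighbour `b` of `d`
with a neighbour before `d` in `D` is adjacent to `e`, and `e` is before `d`. Let `F` be a set of
vertices of the other part which are adjacent to all vertices of `σ` outside `D`, and let there be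
at least `|D| - j` edges between `F` and `D`. Let some vertex of the other part have at most `c`
non-neighbours in `σ` and let at least `n + 1` vertices of the other part have fewer than `|D|`
non-neighbours in `σ`. Then `t(H) ^ (n + j) ≥ p ^ ((n + j) e(H) + c j)`, and the disjoint union of
`n + j` copies of `H` and `j` copies of `K_{2,M}`, `M = |σ|`, is Sidorenko.
(2) If each vertex of the bipartite graph `H` has at most two non-neighbours in the other part, then
`t(H) ^ n ≥ p ^ (n e(H) + 2)`, and the disjoint union of `n` copies of `H` and one `K_{2,M}` is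
Sidorenko, `n` the number of vertices of any one of the two parts and `M` the number of vertices of
the other one.
(3) For `K_{5,5}` minus a cycle of length 10: `t ^ 5 ≥ p ^ 77`, `t ^ 5 t(K_{2,5}) ≥ p ^ 85`, and
`t ≥ p ^ 15` if `p ≥ 5/8`.
(4) Moebius ladders with `2 k` vertices, `k` odd: `t ≥ p ^ (3 k)` if `k ≥ 5` and `p ≥ 5/8`, or
`k ≥ 7` and `p ≥ 3/5`, or `k ≥ 258 / p ^ 17`. (5) The same for weighted graphs. -/
theorem result :
    (∀ {V : Type} [Fintype V] [DecidableEq V] (H : SimpleGraph V) (s : V → Bool),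
      (∀ u v, H.Adj u v → s u ≠ s v) → ∀ (σ : Bool) (D : Finset V), (∀ d ∈ D, s d = σ) →
      D.Nonempty → ∀ r : V → ℕ, (∀ d ∈ D, ∀ e ∈ D, r d = r e → d = e) →
      (∀ d ∈ D, ∃ e ∈ D, ∀ b, H.Adj b d → (∃ f ∈ D, r f < r d ∧ H.Adj b f) →
        r e < r d ∧ H.Adj b e) →
      ∀ F : Finset V, (∀ b ∈ F, s b ≠ σ ∧ ∀ a, s a = σ → a ∉ D → H.Adj b a) →
      ∀ j : ℕ, D.card ≤ ∑ b ∈ F, Nat.card {d : V // d ∈ D ∧ H.Adj b d} + j →
      ∀ (c : ℕ) (b₁ : V), s b₁ ≠ σ → Nat.card {a : V // s a = σ ∧ ¬ H.Adj b₁ a} ≤ c →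
      ∀ n : ℕ, n + 1 ≤ Nat.card {b : V // s b ≠ σ ∧
        Nat.card {a : V // s a = σ ∧ ¬ H.Adj b a} < D.card} →
      NearSid H s ((n + j) * Nat.card H.edgeSet + c * j) (n + j) ∧
      WithK2 H s σ (n + j) j (Nat.card {v : V // s v = σ}) ∧
      ∀ (U : Type) [Finite U] [Nonempty U] (X : SimpleGraph U),
        edgeDensity X ^ ((n + j) * Nat.card H.edgeSet + c * j) ≤ homDensity H X ^ (n + j) ∧
        edgeDensity X ^ ((n + j) * Nat.card H.edgeSet + 2 * Nat.card {v : V // s v = σ} * j) ≤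
          homDensity H X ^ (n + j) *
            homDensity (completeBipartiteGraph (Fin 2) (Fin (Nat.card {v : V // s v = σ}))) X ^ j) ∧
    (∀ {V : Type} [Fintype V] [DecidableEq V] (H : SimpleGraph V) (s : V → Bool),
      (∀ u v, H.Adj u v → s u ≠ s v) →
      (∀ v, Nat.card {u : V // s u ≠ s v ∧ ¬ H.Adj v u} ≤ 2) → ∀ (σ : Bool) (n M : ℕ),
      Nat.card {v : V // s v = σ} = n → Nat.card {v : V // s v = !σ} = M →
      NearSid H s (n * Nat.card H.edgeSet + 2) n ∧ WithK2 H s (!σ) n 1 M ∧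
      ∀ (U : Type) [Finite U] [Nonempty U] (X : SimpleGraph U),
        edgeDensity X ^ (n * Nat.card H.edgeSet + 2) ≤ homDensity H X ^ n ∧
        edgeDensity X ^ (n * Nat.card H.edgeSet + 2 * M) ≤
          homDensity H X ^ n * homDensity (completeBipartiteGraph (Fin 2) (Fin M)) X) ∧
    (∀ (X : Type) [Fintype X] [Nonempty X] (G : SimpleGraph X),
      edgeDensity G ^ 77 ≤ homDensity K55minusC10 G ^ 5 ∧
      edgeDensity G ^ 85 ≤ homDensity K55minusC10 G ^ 5 *
        homDensity (completeBipartiteGraph (Fin 2) (Fin 5)) G ∧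
      (5 / 8 ≤ edgeDensity G → edgeDensity G ^ 15 ≤ homDensity K55minusC10 G)) ∧
    (∀ (X : Type) [Fintype X] [Nonempty X] (G : SimpleGraph X) (k : ℕ), Odd k →
      (5 ≤ k ∧ 5 / 8 ≤ edgeDensity G) ∨ (7 ≤ k ∧ 3 / 5 ≤ edgeDensity G) ∨
        258 ≤ k * edgeDensity G ^ 17 →
      edgeDensity G ^ (3 * k) ≤ homDensity (moebiusLadder k) G) ∧
    (∀ (X : Type) [Fintype X] [Nonempty X] (W : X → X → ℝ) (p : ℝ) (k : ℕ) [NeZero k],
      (∀ x y, W x y = W y x) → (∀ x y, 0 ≤ W x y) → (∀ x y, W x y ≤ 1) →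
      (∑ x, ∑ y, W x y) / (Fintype.card X : ℝ) ^ 2 = p → 0 < p → Odd k →
      (5 ≤ k ∧ 5 / 8 ≤ p) ∨ (7 ≤ k ∧ 3 / 5 ≤ p) ∨ 258 ≤ k * p ^ 17 →
      p ^ (3 * k) ≤ ladderDensity W k) := by
  refine ⟨?_, ?_, ?_, fun _ _ _ G k hk h => graph G k hk h,
    fun _ _ _ W _ k _ hs h0 h1 hp hp0 hk h => weighted W hs h0 h1 hp0 hp k hk h⟩
  · intro V _ _ H s hs σ D hDs hD r hr hRI F hF j hj c b₁ hb₁ hc n hn
    obtain ⟨h1, h2⟩ := general hs σ D hDs hD r hr hRI F hF j hj c b₁ hb₁ hc n hn
    exact ⟨h1, h2, fun _ _ _ X => ⟨h1.graph X, h2.graph X⟩⟩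
  · rintro V _ _ H s hs h2 σ n M rfl rfl
    obtain ⟨h1, h2⟩ := two hs h2 σ
    refine ⟨h1, h2, fun _ _ _ X => ⟨h1.graph X, ?_⟩⟩
    have := h2.graph X
    rwa [mul_one, pow_one] at this
  · intro U _ _ X
    obtain ⟨h1, h2, h3⟩ := near_ten
    refine ⟨h1.graph X, ?_, graph5 X⟩
    have := h2.graph X
    rw [h3, pow_one] at this
    exact this

end Vale.Agent.Results.P050.NearSidorenko
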